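import Vale.Agent.P352X.R.EE.B
import Vale.Agent.P352L.Spec2
import Vale.Agent.P352L.Api1C

/-!
# P352L, row EE, part A: the second moment of the null energy for the running member (helper69)
-/

set_option linter.all false

open MeasureTheory Filter Topology Set
open scoped SchwartzMap ComplexConjugate ContDiff

namespace Vale.Agent.P352L.EE

open Vale.Agent.P352X Vale.Agent.P352X.EE

export Vale.Agent.P352X.EE (nv Bx lam lam_apply chi)

open Vale.Agent.P352 Vale.Agent.P352.GF Vale.Agent.P352.BW Vale.Agent.P352.H246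
open Vale.Agent.P352.H496 Vale.Agent.P352.H755 Vale.Agent.P352.H15
open Vale.Agent.P132 (jconj)
open UniformSpace (Completion)

noncomputable section

variable {D : Type*} [NormedAddCommGroup D] [InnerProductSpace ℂ D] {c : Ctx D}
  {u u' : ℝ → ℝ} {v v' : R2 → ℝ} {ρ ρ' : ℝ → ℝ} {f g : Fn}

lemma T_smul (c : Ctx D) (m n : Ix) (a : ℂ) {f : Fn} (hf : IsTest f) (v : D) :
    c.T m n (fun x => a * f x) v = a • c.T m n f v := by
  have hB := c.Q.bose_fld _ (c.hT.bose m n)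
  have h0 : IsTest fun _ : V => (0 : ℂ) := ⟨0, rfl⟩
  have h1 := c.Q.lin _ _ _ 1 v hB h0 h0
  have h2 := c.Q.lin _ _ _ a v hB h0 hf
  simp only [mul_zero, add_zero, one_smul, left_eq_add, zero_add] at h1 h2
  rw [h2, h1, zero_add]

lemma Tv_hk (c : Ctx D) (h k : V) {f : Fn} (hf : IsTest f) : c.Tv (hk h k f) = ∑ m, ∑ n,
    ((eta m * h m * (eta n * k n) : ℝ) : ℂ) • ((c.T m n f c.Q.vac : D) : Completion D) := by
  have e : ∀ m n, c.T m n (hk h k f m n) c.Q.vac =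
      ((eta m * h m * (eta n * k n) : ℝ) : ℂ) • c.T m n f c.Q.vac := fun m n => T_smul c m n _ hf _
  simp only [Ctx.Tv, Ctx.Tf, e]
  change Completion.toComplL (𝕜 := ℂ) _ = _
  simp only [map_sum, map_smul]
  rfl

lemma perp_Tv (hg : GRP c) (h k : V) {f : Fn} (hf : IsTest f) :
    inner ℂ c.Om (c.Tv (hk h k f)) = 0 := by
  rw [Tv_hk c _ _ hf]
  simp only [inner_sum, inner_smul_right, Base.Om, om, Completion.inner_coe, hg.perp _ _ _ hf,
    mul_zero, Finset.sum_const_zero]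

/-- weak nullity along `sc(L, 1)` -/
lemma wn0 (hg : GRP c) (hb : BAS c.toBase) {η : Completion D} (h : inner ℂ c.Om η = 0)
    (w : Completion D) : Tendsto (fun L : ℝ => inner ℂ (Usc c.Q L 1 η) w) atTop (𝓝 0) := by
  have := hb.wn ℝ atTop (fun L => max L 1) (fun _ => 1) (fun _ => 0) (fun _ => η) η w
    (fun L => ⟨lt_max_of_lt_right one_pos, one_pos⟩)
    (Or.inl (tendsto_atTop_mono (fun L => le_max_left L 1) tendsto_id)) tendsto_const_nhds h
  refine this.congr' ?_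
  filter_upwards [eventually_ge_atTop (1 : ℝ)] with L hL
  rw [hg.ut0, max_eq_left hL]
  rfl

/-- `T(h, k)(f) Ω` -/
def TT (c : Ctx D) (h k : V) (f : Fn) : Completion D := c.Tv (hk h k f)

lemma dis_T (h k : V) : Dis (TT c h k) := fun f g a hf hg => by
  simp only [TT, Tv_hk c h k hf, Tv_hk c h k hg, Tv_hk c h k (Ap.sw_lin a hf hg),
    c.Q.lin _ f g a _ (c.Q.bose_fld _ (c.hT.bose _ _)) hf hg, Completion.coe_add,
    Completion.coe_smul, smul_add, Finset.sum_add_distrib, Finset.smul_sum, smul_comm a]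

lemma dis_l : Dis c.l := c.hl.lin

lemma TT_symm (h k : V) (hf : IsTest f) : TT c h k f = TT c k h f := by
  rw [TT, TT, Tv_hk c h k hf, Tv_hk c k h hf, Finset.sum_comm]
  refine Finset.sum_congr rfl fun m _ => Finset.sum_congr rfl fun n _ => ?_
  rw [c.hT.symm n m f _ hf, mul_comm]

lemma cons (G : GRP c) (h : V) (hu : Tst u) (hv : Tst v) (hρ : Tst ρ) :
    TT c va h (tp u v (deriv ρ)) = TT c (ex 0) h (tp u (di 0 v) ρ) +
      TT c (ex 1) h (tp u (di 1 v) ρ) - TT c vb h (tp (deriv u) v ρ) := by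
  have := congrArg (fun x : D => (x : Completion D)) (G.cons h _ c.Q.vac (test_tp hu hv hρ))
  simp only [dv_a hu hv hρ, dv_b hu hv hρ, dv_e _ hu hv hρ, Fin.sum_univ_two, Completion.coe_sub,
    Completion.coe_add, Completion.coe_zero] at this
  exact eq_sub_of_add_eq (sub_eq_zero.1 this)

lemma trace (G : GRP c) (hu : Tst u) (hv : Tst v) (hρ : Tst ρ) :
    TT c (ex 0) (ex 0) (tp u v ρ) + TT c (ex 1) (ex 1) (tp u v ρ) =
      (2 : ℝ) • TT c va vb (tp u v ρ) - (3 : ℝ) • ((2 : ℝ) • c.l (tp (deriv u) v (deriv ρ)) -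
        c.l (tp u (di 0 (di 0 v)) ρ) - c.l (tp u (di 1 (di 1 v)) ρ)) := by
  have t := test_tp hu hv hρ
  have t1 := test_tp (tst_d hu) hv (tst_d hρ)
  have t2 := test_tp hu (tst_di 0 (tst_di 0 hv)) hρ
  have h1 := congrArg (fun x : D => (x : Completion D)) (G.trace _ c.Q.vac t)
  have h2 := c.hl.trace _ t
  rw [box_tp hu hv hρ, c.hl.lin _ _ _ (Ap.sw_lin _ (Ap.sw_cmul _ t1) t2)
    (test_tp hu (tst_di 1 (tst_di 1 hv)) hρ), c.hl.lin _ _ _ (Ap.sw_cmul _ t1) t2,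
    dis_l.smul _ t1] at h2
  simp only [Fin.sum_univ_two, Completion.coe_sub, Completion.coe_add, Completion.coe_smul] at h1
  rw [← Complex.coe_smul, ← Complex.coe_smul, ← Complex.coe_smul]
  push_cast
  have h3 := h2.trans h1
  simp only [TT, Ctx.Tv]
  linear_combination (norm := module) h3

/-! ### scaling -/

/-- the running member -/
abbrev rn (c : Ctx D) (L : ℝ) : Ctx D := c.sh (Real.log L / 2)

lemma log_sq {L : ℝ} (hL : 0 < L) : Real.log (Real.sqrt (L * 1)) = Real.log L / 2 := by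
  rw [mul_one, Real.log_sqrt hL.le]

lemma sc_T (G : GRP c) {h k : V} {α β L : ℝ} (hL : 0 < L)
    (e1 : scp L 1 h = (Real.sqrt L * α) • h) (e2 : scp L 1 k = (Real.sqrt L * β) • k)
    (hf : IsTest f) :
    Usc c.Q L 1 (TT c h k fun x => f (scp L 1 x)) = ((α * β : ℝ) : ℂ) • TT (rn c L) h k f := by
  obtain ⟨hΛ, hs⟩ := G.lsc L 1 hL one_pos
  have hq : 0 < Real.sqrt (L * 1) := Real.sqrt_pos.2 (by positivity)
  have hq' : 0 < Real.sqrt L := Real.sqrt_pos.2 hL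
  set Λ := bst va vb (Real.sqrt (L / 1) - 1) (Real.sqrt (1 / L) - 1)
  have e : ∀ {h : V} {α : ℝ}, scp L 1 h = (Real.sqrt L * α) • h → sim 1 Λ 0 h = α • h :=
    fun {h α} e => smul_right_injective _ hq'.ne' (by
      beta_reduce
      rw [smul_smul, ← e, ← hs]
      funext n
      simp [sim])
  have := G.ten _ Λ 0 h k _ c.Q.vac hq hΛ hf
  simp only [hs] at this
  rw [e e1, e e2, c.Q.U_vac _ _ _ hq hΛ, log_sq hL] at this
  rw [TT, Ctx.Tv, Usc, G.coe _ _ _ _ hq hΛ, this]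
  change (rn c L).Tv _ = _
  rw [TT, Tv_hk _ _ _ hf, Tv_hk _ _ _ hf, Finset.smul_sum]
  refine Finset.sum_congr rfl fun m _ => ?_
  rw [Finset.smul_sum]
  refine Finset.sum_congr rfl fun n _ => ?_
  rw [smul_smul, ← Complex.ofReal_mul]
  congr 2
  simp only [Pi.smul_apply, smul_eq_mul]
  ring

lemma sc_l (G : GRP c) {L : ℝ} (hL : 0 < L) (hf : IsTest f) :
    Usc c.Q L 1 (c.l fun x => f (scp L 1 x)) = ((L⁻¹ : ℝ) : ℂ) • (rn c L).l f := by
  obtain ⟨hΛ, hs⟩ := G.lsc L 1 hL one_pos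
  have := G.pot _ _ 0 f (Real.sqrt_pos.2 (by positivity : 0 < L * 1)) hΛ hf
  simp only [hs] at this
  rw [log_sq hL, Real.sq_sqrt (by positivity), mul_one L] at this
  rw [Usc, mul_one L, this, Complex.coe_smul]

/-- weak nullity of scaled product functions -/
lemma wn (G : GRP c) (B : BAS c.toBase) {φ0 : Fn → Completion D} {φ : ℝ → Fn → Completion D}
    (h : ∀ L, Dis (φ L)) (p : ∀ f, IsTest f → inner ℂ c.Om (φ0 f) = 0) {a : ℝ → ℝ}
    (s : ∀ L > 0, ∀ f, IsTest f →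
      Usc c.Q L 1 (φ0 fun x => f (scp L 1 x)) = (a L : ℂ) • φ L f) (hu : Tst u) (hv : Tst v)
    (hρ : Tst ρ) {U : ℝ → ℝ → ℝ} {W : ℝ → R2 → ℝ} (e : ∀ L ≥ (1 : ℝ), ∀ t x,
      U L t * W L x = a L * (u (t / L) * v ((Real.sqrt L)⁻¹ • x))) :
    WT atTop (fun L => φ L (tp (U L) (W L) ρ)) 0 := fun w => by
  have := (Complex.continuous_conj.tendsto _).comp (wn0 G B (p _ (test_tp hu hv hρ)) w)
  simp only [Function.comp_def, inner_conj_symm, map_zero] at this
  rw [inner_zero_right]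
  refine this.congr' ?_
  filter_upwards [eventually_ge_atTop (1 : ℝ)] with L hL
  have L0 := one_pos.trans_le hL
  have q := Real.sqrt_pos.2 L0
  have t : IsTest (pr (kL (k3 u v) L) ρ) :=
    Far.isTest_dc (Far.dc_pr (Far.tst_kL (Ap.cs_prod hu hv) L0) hρ)
  have e1 : (fun x => pr (kL (k3 u v) L) ρ (scp L 1 x)) = tp u v ρ := by
    funext x
    simp only [pr, kL, k3, pl_1, pl_2, al_scp, be_scp, tx_scp, mul_one, one_mul, smul_smul, tp_apply]
    rw [inv_mul_cancel₀ q.ne', one_smul, mul_div_cancel_left₀ _ L0.ne']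
  rw [← e1, s L L0 _ t, ← (h L).smul _ t]
  congr 2
  funext z
  simp only [tp_apply, e L hL, pr, kL, k3, pl_1, pl_2]
  push_cast
  ring

/-! ### locality -/

/-- `Z` commutes with the algebra of a neighbourhood of `z`, in which the potentials are local -/
def Sp (c : Ctx D) (Z : Completion D →L[ℂ] Completion D) (z : V) : Prop := ∃ R ∈ 𝓝 z,
  Z ∈ (c.N R).commutant ∧
    ∀ x f, In R f → Pr (c.N R) c.Om ((c.sh x).l f) ((c.sh x).l (bar f))

variable {Z : Completion D →L[ℂ] Completion D}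

lemma loc_l (x : ℝ) (hf : Dc f) (e : bar f = f) (h : ∀ z ∈ tsupport f, Sp c Z z) :
    lam (Z c.Om) (star Z c.Om) ((c.sh x).l f) = 0 := by
  have := (dis_l (c := c.sh x)).loc (ξ := c.Om)
    (fun z hz => (h z hz).imp fun R k => ⟨k.1, _, k.2.1, k.2.2 x⟩) hf le_rfl
  rw [lam_apply, this, e, sub_self]

lemma loc_T (G : All GRP c) (x : ℝ) (a b : V) (hf : Dc f) (e : bar f = f)
    (h : ∀ z ∈ tsupport f, Sp c Z z) : lam (Z c.Om) (star Z c.Om) (TT (c.sh x) a b f) = 0 := by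
  have := (dis_T (c := c.sh x) a b).loc (ξ := c.Om) (fun z hz => (h z hz).imp fun R k =>
    ⟨k.1, _, k.2.1, fun g hg => ((G x).pr_Tv (Ap.in_hk a b hg)).cast rfl (by
      simp only [TT, Ap.bar_hk])⟩) hf le_rfl
  rw [lam_apply, this, e, sub_self]

/-! ### geometry -/

section geo

variable {X X' : Completion D →L[ℂ] Completion D} {O R : Set V} {n n' z z0 : V} {s t : ℝ} {w : R2}

/-- separation by a wedge -/
lemma comm_X (J : JC c) (hX : X ∈ c.N O) (hn : IsNull n) (hn' : IsNull n') (h : 0 < mdot n n')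
    (hO : ∀ z ∈ O, mdot n z < s ∧ t < mdot n' z) (hR : ∀ z ∈ R, mdot n' z < t ∧ s < mdot n z) :
    X ∈ (c.N R).commutant := by
  obtain ⟨y, a, b⟩ := ex_pt hn hn' h s t
  refine comm_anti (c.hN.mono R (Wdg n' n y) fun z hz => ?_) X ?_
  · simpa only [Wdg, mem_setOf_eq, md_sub, a, b, sub_neg, sub_pos] using hR z hz
  · rw [J.dual n' n y hn' hn (md_comm n n' ▸ h)]
    refine c.hN.mono O _ (fun z hz => ?_) X hX
    simpa only [Wdg, mem_setOf_eq, md_sub, a, b, sub_neg, sub_pos] using hO z hz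

lemma comm_Y (J : JC c) (hX : X ∈ c.N O) (hn : IsNull n) (hn' : IsNull n') (h : 0 < mdot n n')
    (hO : ∀ z ∈ O, mdot n (jr z) < s ∧ t < mdot n' (jr z))
    (hR : ∀ z ∈ R, mdot n' z < t ∧ s < mdot n z) : jconj c.J X ∈ (c.N R).commutant := by
  obtain ⟨y, a, b⟩ := ex_pt hn hn' h s t
  have e : ∀ z, z ∈ Wdg (-jr n') (-jr n) (jr y) ↔ mdot n (jr z) < s ∧ t < mdot n' (jr z) :=
    fun z => by
      simp only [Wdg, mem_setOf_eq, md_sub, md_j, jr_jr, a, b, sub_neg, sub_pos, neg_lt_neg_iff,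
        and_comm]
  refine comm_X J (J.alg _ _ (jr y) (null_j hn') (null_j hn) ?_ X
    (c.hN.mono O _ (fun z hz => (e z).2 (hO z hz)) X hX)) hn hn' h ?_ hR
  · rwa [md_neg, md_neg_l, neg_neg, md_jr, md_comm]
  · rintro _ ⟨z, hz, rfl⟩
    exact (e z).1 hz

/-- a cut cone through a given point -/
lemma cone (dd : All DD c) (z0 : V) (w : R2) : ∃ R ∈ 𝓝 z0,
    (∀ x f, In R f → Pr (c.N R) c.Om ((c.sh x).l f) ((c.sh x).l (bar f))) ∧
      ∀ z ∈ R, mdot (nv w) z < mdot (nv w) z0 + 1 ∧ al z0 - 1 < al z ∧ be z0 - 2 < be z := by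
  have w0 := d2_nonneg w
  set δ := (1 + d2 w w)⁻¹ with hδ
  have d0 : 0 < δ := by positivity
  have d1 : δ + δ * d2 w w = 1 := by rw [← mul_one_add, inv_mul_cancel₀ (by positivity)]
  have e : mdot (nv w) vb = 1 := by simp [md_nv]
  refine ⟨{z | z - (z0 - δ • nv w + vb) ∈ HM.Rg (nv w) vb (1 / 4)}, IsOpen.mem_nhds ?_ ?_,
    fun x f => dd x _ _ _ _ f (null_nv w) null_vb e (by norm_num), fun z hz => ?_⟩
  · simp only [HM.Rg, mem_setOf_eq, setOf_and]
    refine IsOpen.inter ?_ (IsOpen.inter ?_ ?_) <;> exact isOpen_lt (by fun_prop) (by fun_prop)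
  · have e' : z0 - (z0 - δ • nv w + vb) = δ • nv w - vb := by abel
    rw [mem_setOf_eq, e']
    simp only [mem_setOf_eq, HM.Rg, md_sub, md_sub_l, md_smul, md_smul_l, (null_nv w).1, e,
      md_comm vb (nv w), null_vb.1]
    refine ⟨by norm_num, by norm_num, by linarith⟩
  · obtain ⟨a, b, k⟩ := hz
    set ζ := z - (z0 - δ • nv w + vb) with hζ
    have h := fut (z := ζ + (2 : ℝ) • vb) (w := w) (by
      simp only [mu, md_add, md_add_l, md_smul, md_smul_l, null_vb.1, md_comm ζ vb]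
      linarith) (by
      rw [md_add, md_smul, e]
      linarith)
    rw [hζ, md_sub, md_add, md_sub, md_smul, (null_nv w).1, e] at a
    simp only [hζ, nv, al_add, al_sub, al_smul, al_vb, al_pt, be_add, be_sub, be_smul, be_vb,
      be_pt] at h
    have := mul_nonneg d0.le w0
    exact ⟨by linarith, by linarith, by linarith⟩

variable {u A L : ℝ}

lemma sp_of (J : JC c) (dd : All DD c) (hA : 2 * u + 10 ≤ A) (hX : X ∈ c.N (dc (pt (3 * A) (-A) 0) 1))
    (hX' : X' ∈ c.N (dc (pt A (-A) 0) 1)) (h1 : |be z0| ≤ u) (h2 : -1 / 2 ≤ al z0)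
    (hw : 0 < d2 w w) (h : ∀ z, z ∈ Bx (3 * A) (-A) ∨ z ∈ Bx (-A) A →
      mdot (nv w) z0 + 1 < mdot (nv w) z) : Sp c (jconj c.J X' * X) z0 := by
  obtain ⟨R, a, b, k⟩ := cone dd z0 w
  have u0 := (abs_nonneg _).trans h1
  have h3 := (abs_le.1 h1).1
  refine ⟨R, a, mul_mem (comm_Y J hX' null_vb (null_nv w) (by simp [md_vb, nv]) (s := al z0 - 1)
    (fun z hz => ⟨?_, h _ (.inr ?_)⟩) fun z hz => ⟨(k z hz).1, (k z hz).2.1⟩)
    (comm_X J hX null_va (null_nv w) (by simpa [md_va, nv] using hw) (s := be z0 - 2)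
    (fun z hz => ⟨?_, h z (.inl (dc_Bx' hz))⟩) fun z hz => ⟨(k z hz).1, (k z hz).2.2⟩), b⟩
  · have := (abs_le.1 (dc_Bx' hz).1).1
    rw [md_vb, al_jr]
    linarith
  · obtain ⟨b1, b2, b3⟩ := dc_Bx' hz
    exact ⟨by rwa [al_jr, neg_sub_neg, abs_sub_comm], by
      rwa [be_jr, ← neg_add', abs_neg, ← sub_neg_eq_add], by rwa [tx_jr]⟩
  · have := (abs_le.1 (dc_Bx' hz).2.1).2
    rw [md_va]
    linarith

lemma sp (J : JC c) (dd : All DD c) (hA : 2 * u + 10 ≤ A) (hX : X ∈ c.N (dc (pt (3 * A) (-A) 0) 1))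
    (hX' : X' ∈ c.N (dc (pt A (-A) 0) 1)) (hL : A + 1 ≤ L) (h1 : |be z0| ≤ u)
    (h2 : Gm A L (al z0) (tx z0)) : Sp c (jconj c.J X' * X) z0 := by
  have u0 := (abs_nonneg _).trans h1
  have h3 := (abs_le.1 h1).2
  rcases h2 with h2 | ⟨h2, h4, h5⟩
  · obtain ⟨h4, h5⟩ := abs_le.1 h2
    obtain ⟨σ, s1, s2⟩ : ∃ σ : ℝ, σ * σ = 1 ∧ 0 ≤ σ * tx z0 0 := (le_total 0 (tx z0 0)).elim
      (fun h => ⟨1, by norm_num, by linarith⟩) fun h => ⟨-1, by norm_num, by linarith⟩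
    have e : d2 (σ • e2 0) (σ • e2 0) = 1 := by simp [d2_smul, d2_smul_l, s1]
    refine sp_of J dd hA hX hX' h1 (by linarith) (w := σ • e2 0) (by rw [e]; exact one_pos)
      fun z hz => ?_
    rw [md_nv, md_nv, e, d2_smul_l, d2_smul_l, d2_e2_l, d2_e2_l]
    have q : d2 (tx z) (tx z) ≤ 4 → σ * tx z 0 ≤ 2 := fun h => by
      have := (sq_le_d2 (tx z) 0).trans h
      nlinarith [sq_nonneg (σ * tx z 0 - 2)]
    rcases hz with ⟨b1, b2, b3⟩ | ⟨b1, b2, b3⟩
    all_goals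
      have b4 := (abs_le.1 b1).1
      have b5 := (abs_le.1 b2).1
      have b6 := q b3
      linarith
  · have L0 : 0 < L := by linarith
    have A0 : 0 < A := by linarith
    set x := tx z0
    have x0 : 0 < d2 x x := lt_of_lt_of_le (by positivity) h5
    set τ := (4 * L)⁻¹
    have t0 : 0 < τ := by positivity
    have t1 : τ * L = 1 / 4 := by
      simp only [τ]
      field_simp
    refine sp_of J dd hA hX hX' h1 h2 (w := τ • x) (by rw [d2_smul, d2_smul_l]; positivity)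
      fun z hz => ?_
    have b : -A - 1 / 2 ≤ al z ∧ -A - 1 ≤ be z ∧ d2 (tx z) (tx z) ≤ 4 := by
      rcases hz with ⟨b1, b2, b3⟩ | ⟨b1, b2, b3⟩
      all_goals exact ⟨by linarith [(abs_le.1 b1).1], by linarith [(abs_le.1 b2).1], b3⟩
    obtain ⟨b1, b2, b3⟩ := b
    rw [md_nv, md_nv, d2_smul, d2_smul_l, d2_smul_l]
    have c1 : d2 x (tx z) ≤ d2 x x / 4 + 4 := by
      have := d2_nonneg (x - (2 : ℝ) • tx z)
      simp only [d2_sub, d2_sub_l, d2_smul, d2_smul_l, d2_comm (tx z) x] at this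
      linarith
    have c2 : τ * (al z0 - al z) ≤ 3 / 4 :=
      (mul_le_mul_of_nonneg_left (by linarith : al z0 - al z ≤ 3 * L) t0.le).trans_eq
        (by linarith)
    have c3 : 8 * A ≤ τ * d2 x x := by
      have := mul_le_mul_of_nonneg_left h5 t0.le
      nlinarith
    have c4 := mul_le_mul_of_nonneg_left c2 (mul_pos t0 x0).le
    have c5 := mul_le_mul_of_nonneg_left c1 t0.le
    have c6 : τ ≤ 1 / 4 := by nlinarith
    nlinarith

end geo

/-! ### the algebra -/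

variable {A L : ℝ}

lemma step1 (G : GRP c) (i : Fin 2) (hu : Tst u) (hv : Tst v) (hρ : Tst ρ) :
    TT c (ex i) va (tp u (di i fun x => d2 x x * v x) (deriv ρ)) =
      TT c (ex i) va (tp u (fun x => d2 x x * di i v x) (deriv ρ)) + (2 : ℝ) •
        (TT c (ex i) (ex i) (tp u v ρ) + TT c (ex 0) (ex i) (tp u (fun x => x i * di 0 v x) ρ) +
          TT c (ex 1) (ex i) (tp u (fun x => x i * di 1 v x) ρ) -
          TT c vb (ex i) (tp (deriv u) (fun x => x i * v x) ρ)) := by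
  have e : ∀ j, TT c (ex j) (ex i) (tp u (di j fun x => x i * v x) ρ) =
      TT c (ex j) (ex i) (tp u (fun x => x i * di j v x) ρ) + e2 j i • TT c (ex j) (ex i) (tp u v ρ) :=
    fun j => (dis_T _ _).tp _ hu (tst_x i (tst_di j hv)) hu hv hρ fun t x => by
      rw [di_x hv]
      ring
  rw [(dis_T _ _).tp 2 hu (tst_q (tst_di i hv)) hu (tst_x i hv) (tst_d hρ) fun t x => by
    rw [di_q hv]; ring, TT_symm (ex i) va (test_tp hu (tst_x i hv) (tst_d hρ)),
    cons G _ hu (tst_x i hv) hρ, e, e]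
  fin_cases i <;> simp [e2] <;> abel

/-- admissible families of distributions -/
structure Ad (c : Ctx D) (Z : Completion D →L[ℂ] Completion D) (φ : ℝ → Fn → Completion D)
    (a : ℝ → ℝ) : Prop where
  dis : ∀ L, Dis (φ L)
  sc : ∃ φ0 : Fn → Completion D, (∀ f, IsTest f → inner ℂ c.Om (φ0 f) = 0) ∧ ∀ L > 0, ∀ f,
    IsTest f → Usc c.Q L 1 (φ0 fun x => f (scp L 1 x)) = (a L : ℂ) • φ L f
  loc : ∀ L f, Dc f → bar f = f → (∀ z ∈ tsupport f, Sp c Z z) →
    lam (Z c.Om) (star Z c.Om) (φ L f) = 0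

variable {φ : ℝ → Fn → Completion D} {a : ℝ → ℝ} {u0 : ℝ}

lemma ad_l (G : GRP c) : Ad c Z (fun L => (rn c L).l) fun L => L⁻¹ :=
  ⟨fun _ => dis_l, ⟨_, G.perpl, fun _ hL _ => sc_l G hL⟩, fun _ _ => loc_l _⟩

lemma ad_T (G : All GRP c) {h k : V} {α β : ℝ → ℝ}
    (e1 : ∀ L > 0, scp L 1 h = (Real.sqrt L * α L) • h)
    (e2 : ∀ L > 0, scp L 1 k = (Real.sqrt L * β L) • k) :
    Ad c Z (fun L => TT (rn c L) h k) fun L => α L * β L :=
  ⟨fun _ => dis_T h k, ⟨TT c h k, fun _ => perp_Tv G.zero h k,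
    fun L hL _ => sc_T G.zero hL (e1 L hL) (e2 L hL)⟩, fun _ _ => loc_T G _ h k⟩

/-- the defect vanishes near the part `Gm` of the slab -/
def Sl (c : Ctx D) (Z : Completion D →L[ℂ] Completion D) (u0 A : ℝ) : Prop :=
  ∀ L ≥ A + 1, ∀ z, |be z| ≤ u0 → Gm A L (al z) (tx z) → Sp c Z z

lemma Sl.sp (S : Sl c Z u0 A) (hL : A + 1 ≤ L) (hρ : ∀ t, ρ t ≠ 0 → |t| ≤ u0)
    (h : ∀ t x, u t ≠ 0 → v x ≠ 0 → Gm A L t x) : ∀ z ∈ tsupport (tp u v ρ), Sp c Z z :=
  fun z hz => by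
  have := Ap.tsupp_sub (K := {z | |be z| ≤ u0 ∧ Gm A L (al z) (tx z)}) (f := tp u v ρ) (by
    simp only [Gm, setOf_and, setOf_or]
    refine IsClosed.inter ?_ (IsClosed.union ?_ (IsClosed.inter ?_ (IsClosed.inter ?_ ?_))) <;>
      exact isClosed_le (by fun_prop) (by fun_prop)) (fun z k => by
    simp only [tp_apply, ne_eq, Complex.ofReal_eq_zero, mul_eq_zero, not_or] at k
    exact ⟨hρ _ k.2, h _ _ k.1.1 k.1.2⟩) hz
  exact S L hL z this.1 this.2

/-- families on which the defect tends to zero -/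
def Nul (c : Ctx D) (Z : Completion D →L[ℂ] Completion D) (F : ℝ → Completion D) : Prop :=
  Tendsto (fun L => lam (Z c.Om) (star Z c.Om) (F L)) atTop (𝓝 0)

/-- transverse fluxes -/
lemma nul_x (S : Sl c Z u0 A) (hA : 0 < A)
    (h : ∀ L f, Dc f → bar f = f → (∀ z ∈ tsupport f, Sp c Z z) →
      lam (Z c.Om) (star Z c.Om) (φ L f) = 0) (hρ : Tst ρ) (r : ∀ t, ρ t ≠ 0 → |t| ≤ u0)
    {W : ℝ → R2 → ℝ} (hW : ∀ L > 0, Tst (W L)) (w : ∀ L > 0, ∀ x, d2 x x < 32 * A * L → W L x = 0) :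
    Nul c Z fun L => φ L (tp (uL L) (W L) ρ) := by
  refine tendsto_const_nhds.congr' ?_
  filter_upwards [eventually_ge_atTop (A + 1)] with L hL
  have L0 : 0 < L := by linarith
  exact (h _ _ (dc_tp (tst_uL L0) (hW L L0) hρ) bar_tp (S.sp hL r fun t x a b => .inr
    ⟨(uL_ne L0 a).1, (uL_ne L0 a).2, not_lt.1 fun k => b (w L L0 x k)⟩)).symm

/-- far faces -/
lemma nul_f (G : GRP c) (B : BAS c.toBase) (h : Ad c Z φ a) (hρ : Tst ρ) {W : ℝ → R2 → ℝ} (hv : Tst v)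
    (e : ∀ L > (0 : ℝ), ∀ x, L⁻¹ * W L x = a L * v ((Real.sqrt L)⁻¹ • x)) :
    Nul c Z fun L => φ L (tp (fL L) (W L) ρ) :=
  h.sc.elim fun _ k => lam_wt (wn G B h.dis k.1 k.2 tst_dkp hv hρ fun L hL t x => by
    rw [fL, mul_right_comm, e L (one_pos.trans_le hL)]
    ring) _ _

/-- longitudinal fluxes -/
lemma nul_a (G : GRP c) (B : BAS c.toBase) (S : Sl c Z u0 A) (hA : 0 < A) (h : Ad c Z φ a) (hρ : Tst ρ)
    (r : ∀ t, ρ t ≠ 0 → |t| ≤ u0) {W : ℝ → R2 → ℝ} (hW : ∀ L > 0, Tst (W L)) (hv : Tst v)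
    (e : ∀ L > (0 : ℝ), ∀ x, L⁻¹ * W L x = a L * v ((Real.sqrt L)⁻¹ • x)) :
    Nul c Z fun L => φ L (tp (deriv (uL L)) (W L) ρ) := by
  refine Tendsto.congr' ?_ (nul_f G B h hρ hv e)
  filter_upwards [eventually_ge_atTop (A + 1)] with L hL
  have L0 : 0 < L := by linarith
  rw [(h.dis L).tp (U := deriv (uL L)) 1 tst_dchi (hW L L0) (tst_fL L0) (hW L L0) hρ fun t x => by
    rw [der_uL (by linarith)]; ring, map_add, one_smul, h.loc _ _ (dc_tp tst_dchi (hW L L0) hρ)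
    bar_tp (S.sp hL r fun t x a _ => .inl (abs_le.2 ⟨by_contra fun k => a (dchi0 (by linarith)),
      by_contra fun k => a (dchi1 (by linarith))⟩)), zero_add]

theorem nul_main (G : All GRP c) (B : BAS c.toBase) (S : Sl c Z u0 A) (hA : 0 < A) (hρ : Tst ρ)
    (r : tsupport ρ ⊆ Icc (-u0) u0) : Nul c Z fun L =>
      TT (rn c L) va va (tp (uL L) (fun x => d2 x x * vL (32 * A * L) x) (deriv (deriv ρ))) -
        (4 : ℝ) • TT (rn c L) va vb (tp (uL L) (vL (32 * A * L)) ρ) := by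
  have r0 : ∀ t, ρ t ≠ 0 → |t| ≤ u0 := fun t h => abs_le.2 (r (subset_tsupport _ h))
  have r1 : ∀ t, deriv ρ t ≠ 0 → |t| ≤ u0 := fun t h => abs_le.2 (r (support_deriv_subset h))
  have p : ∀ L > (0 : ℝ), 0 < 32 * A * L := fun L hL => by positivity
  have tv : ∀ L > (0 : ℝ), Tst (vL (32 * A * L)) := fun L hL => tst_vL (p L hL)
  have t0 : Tst (vL (32 * A)) := tst_vL (by positivity)
  have z : ∀ i, ∀ L > (0 : ℝ), ∀ x, d2 x x < 32 * A * L → di i (vL (32 * A * L)) x = 0 :=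
    fun i L hL => di0 i fun x => vL1 (p L hL)
  have s : ∀ L > (0 : ℝ), Real.sqrt L ≠ 0 := fun L hL => (Real.sqrt_pos.2 hL).ne'
  have f1 := nul_a G.zero B S hA (ad_T G (fun _ => sc_b) fun _ => sc_a) (tst_d hρ) r1
    (fun L hL => tst_q (tv L hL)) (tst_q t0) fun L hL x => by
      rw [vL_sc hL, inv_mul_cancel₀ (s L hL), d2_smul, d2_smul_l, ← mul_assoc _ _ (d2 x x),
        ← mul_inv, Real.mul_self_sqrt hL.le, one_mul, mul_assoc (L⁻¹)]
  have f2 := fun i => nul_a G.zero B S hA (ad_T G (fun _ => sc_b) fun L _ => sc_e L i) hρ r0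
    (fun L hL => tst_x i (tv L hL)) (tst_x i t0) fun L hL x => by
      rw [vL_sc hL, mul_one, Pi.smul_apply, smul_eq_mul, ← mul_assoc, ← mul_assoc, ← mul_assoc,
        ← mul_inv, Real.mul_self_sqrt hL.le]
  have f3 := nul_a G.zero B S hA (ad_l G.zero) (tst_d hρ) r1 tv t0 fun L hL x => by rw [vL_sc hL]
  have g1 := fun i => nul_x S hA (fun L _ => loc_T G (Real.log L / 2) (ex i) va) (tst_d hρ) r1
    (fun L hL => tst_q (tst_di i (tv L hL))) fun L hL x hx => by rw [z i L hL x hx, mul_zero]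
  have g2 := fun i j => nul_x S hA (fun L _ => loc_T G (Real.log L / 2) (ex j) (ex i)) hρ r0
    (fun L hL => tst_x i (tst_di j (tv L hL))) fun L hL x hx => by rw [z j L hL x hx, mul_zero]
  have g3 := fun i => nul_x S hA (fun L _ => loc_l (Real.log L / 2)) hρ r0
    (fun L hL => tst_di i (tst_di i (tv L hL))) fun L hL => di0 i (z i L hL)
  have := (((g1 0).add (g1 1)).sub f1).add ((((((g2 0 0).add (g2 0 1)).sub (f2 0)).add
    (((g2 1 0).add (g2 1 1)).sub (f2 1))).sub ((((f3.const_smul (2 : ℝ)).sub (g3 0)).sub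
      (g3 1)).const_smul (3 : ℝ))).const_smul (2 : ℝ))
  simp only [add_zero, sub_zero, smul_zero] at this
  refine this.congr' ?_
  filter_upwards [eventually_gt_atTop (0 : ℝ)] with L hL
  simp only [← map_add, ← map_sub, ← map_smul]
  congr 1
  have g := G (Real.log L / 2)
  rw [cons g _ (tst_uL hL) (tst_q (tv L hL)) (tst_d hρ), step1 g _ (tst_uL hL) (tv L hL) hρ,
    step1 g _ (tst_uL hL) (tv L hL) hρ]
  linear_combination (norm := module) (-2 : ℝ) • trace g (tst_uL hL) (tv L hL) hρ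

end

end Vale.Agent.P352L.EE
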